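import Crest.Agent.N337.Th.Limit

/-!
# Row 337: `sand : FinVolStmt → SandStmt` (helper43)
-/

set_option autoImplicit false

namespace Crest.Agent.N337.Th

open Crest.MathPhysics.SpinModel Filter Topology Free MeasureTheory
open scoped Pointwise

variable {d : ℕ} {J : (Fin d → ℤ) → ℝ}

/-- Riemann sums over the momenta of the torus. -/
theorem tendsto_riemann {g : (Fin d → ℝ) → ℝ} (hg : Continuous g) :
    Tendsto (fun L : ℕ => (∑ k : Tor d (L + 1), g (mom k)) / ((L + 1 : ℕ) : ℝ) ^ d) atTop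
      (𝓝 (∫ p in Set.pi Set.univ (fun _ : Fin d => Set.Icc (-Real.pi) Real.pi),
        g p / (2 * Real.pi) ^ d)) := by
  set s : Set (Fin d → ℝ) := Set.pi Set.univ fun _ => Set.Ioc (-(1 / 2) : ℝ) (1 / 2) with hs
  have hπ : 0 < 2 * Real.pi := by positivity
  have h1 := tendsto_tsum_div_pow_atTop_integral s (fun x => g ((2 * Real.pi) • x))
    (hg.comp (continuous_const_smul _))
    (Bornology.IsBounded.pi fun _ => Metric.isBounded_Ioc _ _)
    (MeasurableSet.univ_pi fun _ => measurableSet_Ioc)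
    (Convex.addHaar_frontier volume (convex_pi fun _ _ => convex_Ioc _ _))
  have e1 : (2 * Real.pi) • s = Set.pi Set.univ fun _ : Fin d => Set.Ioc (-Real.pi) Real.pi := by
    ext p
    rw [Set.mem_smul_set_iff_inv_smul_mem₀ hπ.ne', hs]
    simp only [Set.mem_pi, Set.mem_univ, forall_const, Set.mem_Ioc, Pi.smul_apply, smul_eq_mul]
    refine forall_congr' fun a => ?_
    rw [← div_eq_inv_mul, lt_div_iff₀ hπ, div_le_iff₀ hπ]
    constructor <;> rintro ⟨h1, h2⟩ <;> constructor <;> linarith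
  have e2 : ∫ x in s, g ((2 * Real.pi) • x) =
      ∫ p in Set.pi Set.univ (fun _ : Fin d => Set.Icc (-Real.pi) Real.pi),
        g p / (2 * Real.pi) ^ d := by
    have e3 : (Set.pi Set.univ fun _ : Fin d => Set.Ioc (-Real.pi) Real.pi) =ᵐ[volume]
        (Set.pi Set.univ fun _ : Fin d => Set.Icc (-Real.pi) Real.pi) := by
      rw [Set.pi_univ_Icc]
      exact Measure.univ_pi_Ioc_ae_eq_Icc (f := fun _ => -Real.pi) (g := fun _ => Real.pi)
    rw [Measure.setIntegral_comp_smul_of_pos volume g s hπ, e1, integral_div,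
      setIntegral_congr_set e3]
    simp only [Module.finrank_fin_fun, smul_eq_mul]
    rw [div_eq_inv_mul]
  rw [e2, Fintype.card_fin] at h1
  refine (h1.comp (tendsto_add_atTop_nat 1)).congr fun L => ?_
  simp only [Function.comp]
  congr 1
  have hL : (0 : ℝ) < ((L + 1 : ℕ) : ℝ) := by positivity
  let f : Tor d (L + 1) → ↑(s ∩ (((L + 1 : ℕ) : ℝ))⁻¹ •
      Submodule.span ℤ (Set.range (Pi.basisFun ℝ (Fin d)))) := fun k =>
    ⟨fun a => ((k a).valMinAbs : ℝ) / ((L + 1 : ℕ) : ℝ), fun a _ => by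
      have h := ZMod.valMinAbs_mem_Ioc (k a)
      have h2 : -((L + 1 : ℕ) : ℝ) < ((k a).valMinAbs : ℝ) * 2 := by exact_mod_cast h.1
      have h3 : ((k a).valMinAbs : ℝ) * 2 ≤ ((L + 1 : ℕ) : ℝ) := by exact_mod_cast h.2
      rw [Set.mem_Ioc, lt_div_iff₀ hL, div_le_iff₀ hL]
      constructor <;> linarith,
    BoxIntegral.unitPartition.mem_smul_span_iff.2 fun a => ⟨(k a).valMinAbs, by
      rw [mul_div_cancel₀ _ hL.ne']; simp⟩⟩
  have hf : Function.Bijective f := by
    constructor
    · intro k k' h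
      funext a
      have := congrFun (congrArg Subtype.val h) a
      simp only [f] at this
      rw [div_left_inj' hL.ne', Int.cast_inj] at this
      exact ZMod.valMinAbs_inj.1 this
    · rintro ⟨x, hx1, hx2⟩
      choose z hz using BoxIntegral.unitPartition.mem_smul_span_iff.1 hx2
      refine ⟨fun a => (z a : ZMod (L + 1)), Subtype.ext (funext fun a => ?_)⟩
      have h0 : (z a : ℝ) = ((L + 1 : ℕ) : ℝ) * x a := by simpa using hz a
      obtain ⟨h2, h3⟩ := hx1 a trivial
      have h4 : ((z a : ZMod (L + 1))).valMinAbs = z a := by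
        rw [ZMod.valMinAbs_spec]
        refine ⟨rfl, ?_, ?_⟩
        · have : -((L + 1 : ℕ) : ℝ) < (z a : ℝ) * 2 := by rw [h0]; nlinarith
          exact_mod_cast this
        · have : (z a : ℝ) * 2 ≤ ((L + 1 : ℕ) : ℝ) := by rw [h0]; nlinarith
          exact_mod_cast this
      simp only [f]
      rw [h4, h0, mul_div_cancel_left₀ _ hL.ne']
  rw [← (Equiv.ofBijective f hf).tsum_eq, tsum_fintype]
  refine Finset.sum_congr rfl fun k _ => ?_
  congr 1
  funext a
  simp only [Equiv.ofBijective_apply, f, mom, Pi.smul_apply, smul_eq_mul]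
  ring

theorem continuous_eps (hJ : Coup J) (n : ℕ) : Continuous (eps n J) := by
  have : eps n J = fun p => spinVal n * ∑ z ∈ sp hJ, J z * (1 - Real.cos (∑ a, p a * (z a : ℝ))) :=
    funext (eps_eq hJ n)
  rw [this]
  fun_prop

theorem tendsto_nTor (hJ : Coup J) (n : ℕ) {β h : ℝ} (hβ : 0 < β) (hh : 0 < h) :
    Tendsto (fun L : ℕ => nTor n J (L + 1) β h) atTop (𝓝 (nInf n J β h)) := by
  have hc := continuous_eps hJ n
  have := tendsto_riemann (g := fun p => 1 / (Real.exp (β * (eps n J p + h)) - 1))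
    (continuous_const.div (by fun_prop) fun p => by
      have := eps_nonneg hJ n p
      exact (sub_pos.2 (Real.one_lt_exp_iff.2 (by positivity))).ne')
  simp only [div_div, mul_comm _ ((2 * Real.pi) ^ d)] at this
  exact this

/-- The integrand of `nInf`. -/
noncomputable def bose (n : ℕ) (J : (Fin d → ℤ) → ℝ) (β h : ℝ) (p : Fin d → ℝ) : ℝ :=
  1 / ((2 * Real.pi) ^ d * (Real.exp (β * (eps n J p + h)) - 1))

theorem measurable_bose (hJ : Coup J) (n : ℕ) (β h : ℝ) : Measurable (bose n J β h) := by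
  have hc := (continuous_eps hJ n).measurable
  unfold bose
  fun_prop

theorem bose_nonneg (hJ : Coup J) (n : ℕ) {β h : ℝ} (hβ : 0 < β) (hh : 0 ≤ h) (p : Fin d → ℝ) :
    0 ≤ bose n J β h p := by
  have := eps_nonneg hJ n p
  have : 0 ≤ Real.exp (β * (eps n J p + h)) - 1 := sub_nonneg.2 (Real.one_le_exp (by positivity))
  unfold bose
  positivity

theorem bose_anti (n : ℕ) {β h : ℝ} (hβ : 0 < β) (hh : 0 ≤ h) {p : Fin d → ℝ}
    (hp : 0 < eps n J p) : bose n J β h p ≤ bose n J β 0 p := by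
  have : 0 < Real.exp (β * (eps n J p + 0)) - 1 :=
    sub_pos.2 (Real.one_lt_exp_iff.2 (by positivity))
  unfold bose
  gcongr

theorem ae_eps_pos (hd : 1 ≤ d) (hJ : Coup J) {n : ℕ} (hn : 1 ≤ n) : ∃ c : ℝ, 0 < c ∧
    ∀ᵐ p ∂(volume.restrict (Set.pi Set.univ fun _ : Fin d => Set.Icc (-Real.pi) Real.pi)),
      0 < ‖p‖ ∧ c * ‖p‖ ^ 2 ≤ eps n J p := by
  obtain ⟨c, hc, h⟩ := eps_lower hJ hn
  have : Nonempty (Fin d) := ⟨⟨0, hd⟩⟩
  refine ⟨c, hc, ?_⟩
  have h0 : ∀ᵐ p : Fin d → ℝ, p ≠ 0 := by simp [ae_iff]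
  filter_upwards [ae_restrict_mem (MeasurableSet.univ_pi fun _ => measurableSet_Icc),
    ae_restrict_of_ae h0] with p hp hp0
  refine ⟨norm_pos_iff.2 hp0, le_trans ?_ (h p fun a => abs_le.2 (hp a trivial))⟩
  refine mul_le_mul_of_nonneg_left ?_ hc.le
  refine (Real.le_sqrt (norm_nonneg _) (by positivity)).1
    ((pi_norm_le_iff_of_nonneg (Real.sqrt_nonneg _)).2 fun a => ?_)
  exact Real.abs_le_sqrt (Finset.single_le_sum (f := fun a => p a ^ 2) (fun _ _ => sq_nonneg _)
    (Finset.mem_univ a))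

theorem integrableOn_bose (hd : 3 ≤ d) (hJ : Coup J) {n : ℕ} (hn : 1 ≤ n) {β : ℝ} (hβ : 0 < β) :
    IntegrableOn (bose n J β 0)
      (Set.pi Set.univ fun _ : Fin d => Set.Icc (-Real.pi) Real.pi) := by
  obtain ⟨c, hc, h⟩ := ae_eps_pos (by omega) hJ hn
  have h1 : IntegrableOn (fun p : Fin d → ℝ => ‖p‖ ^ (-2 : ℝ)) (Metric.ball 0 4) :=
    integrableOn_ball_of_norm_le_rpow (C := 1) (α := 2) (by simp; omega)
      (by simp only [Module.finrank_fin_fun]; exact_mod_cast hd)
      (Eventually.of_forall fun p => by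
        rw [Real.norm_eq_abs, abs_of_nonneg (by positivity), one_mul])
      (by fun_prop : Measurable fun p : Fin d → ℝ => ‖p‖ ^ (-2 : ℝ)).aestronglyMeasurable
  have h2 := h1.mono_set (s := Set.pi Set.univ fun _ : Fin d => Set.Icc (-Real.pi) Real.pi)
    fun p hp => by
      rw [mem_ball_zero_iff]
      exact ((pi_norm_le_iff_of_nonneg Real.pi_pos.le).2 fun a =>
        abs_le.2 (hp a trivial)).trans_lt Real.pi_lt_four
  refine Integrable.mono' (h2.const_mul (1 / ((2 * Real.pi) ^ d * (β * c))))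
    (measurable_bose hJ n β 0).aestronglyMeasurable ?_
  filter_upwards [h] with p ⟨hp0, hp⟩
  rw [Real.norm_eq_abs, abs_of_nonneg (bose_nonneg hJ n hβ le_rfl p), Real.rpow_neg hp0.le,
    Real.rpow_two, ← div_eq_mul_inv, div_div, bose, add_zero, mul_assoc]
  have h3 : β * c * ‖p‖ ^ 2 ≤ Real.exp (β * eps n J p) - 1 := by
    have := Real.add_one_le_exp (β * eps n J p)
    nlinarith
  gcongr

theorem nInf_le (hd : 3 ≤ d) (hJ : Coup J) {n : ℕ} (hn : 1 ≤ n) {β h : ℝ} (hβ : 0 < β)
    (hh : 0 ≤ h) : nInf n J β h ≤ nInf n J β 0 := by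
  obtain ⟨c, hc, h⟩ := ae_eps_pos (by omega) hJ hn
  refine integral_mono_of_nonneg (Eventually.of_forall (bose_nonneg hJ n hβ hh))
    (integrableOn_bose hd hJ hn hβ) ?_
  filter_upwards [h] with p ⟨hp0, hp⟩
  exact bose_anti n hβ hh (lt_of_lt_of_le (by positivity) hp)

theorem tendsto_nInf (hd : 3 ≤ d) (hJ : Coup J) {n : ℕ} (hn : 1 ≤ n) {β : ℝ} (hβ : 0 < β) :
    Tendsto (nInf n J β) (𝓝[>] 0) (𝓝 (nInf n J β 0)) := by
  obtain ⟨c, hc, h⟩ := ae_eps_pos (by omega) hJ hn
  refine tendsto_integral_filter_of_dominated_convergence (F := fun h => bose n J β h)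
    (f := bose n J β 0) (bose n J β 0)
    (Eventually.of_forall fun h => (measurable_bose hJ n β h).aestronglyMeasurable) ?_
    (integrableOn_bose hd hJ hn hβ) ?_
  · filter_upwards [self_mem_nhdsWithin] with t ht
    filter_upwards [h] with p ⟨hp0, hp⟩
    rw [Real.norm_eq_abs, abs_of_nonneg (bose_nonneg hJ n hβ (le_of_lt ht) p)]
    exact bose_anti n hβ (le_of_lt ht) (lt_of_lt_of_le (by positivity) hp)
  · filter_upwards [h] with p ⟨hp0, hp⟩
    have h1 : 0 < eps n J p := lt_of_lt_of_le (by positivity) hp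
    have h2 : 0 < Real.exp (β * (eps n J p + 0)) - 1 :=
      sub_pos.2 (Real.one_lt_exp_iff.2 (by positivity))
    refine Tendsto.mono_left (ContinuousAt.tendsto (f := fun t => bose n J β t p) ?_)
      nhdsWithin_le_nhds
    unfold bose
    exact continuousAt_const.div (by fun_prop) (by positivity)

/-- The derivative of the torus pressure. -/
theorem hasDerivAt_press_tor {L : ℕ} [NeZero L] (n : ℕ) {β : ℝ} (hβ : β ≠ 0) (h : ℝ) :
    HasDerivAt (press n (torJ J L) β) (spinVal n - ev n (torJ J L) β h (num n 0)) h := by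
  refine (hasDerivAt_press (n := n) (torJ J L) hβ h).congr_deriv ?_
  have h1 : ∀ x : Tor d L, ev n (torJ J L) β h (Sz n x) =
      spinVal n - ev n (torJ J L) β h (num n 0) := fun x => by
    have := ev_reix (n := n) (J := torJ J L) (J' := torJ J L) (e := Equiv.addRight x)
      (fun u v => torJ_add u v x) β h (num n 0)
    simp only [reix_num, Equiv.coe_addRight, zero_add] at this
    rw [Sz_eq_num, ev_sub, ev_smul, ev_one, mul_one, this]
  simp only [h1, Finset.sum_const, Finset.card_univ, nsmul_eq_mul]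
  rw [mul_div_cancel_left₀ _ (by exact_mod_cast Fintype.card_ne_zero)]

theorem tangent_le {f : ℝ → ℝ} (hf : ConvexOn ℝ Set.univ f) {x y c : ℝ} (hd : HasDerivAt f c x) :
    c * (y - x) ≤ f y - f x := by
  rcases lt_trichotomy x y with h | h | h
  · have := hf.le_slope_of_hasDerivAt (Set.mem_univ x) (Set.mem_univ y) h hd
    rwa [slope_def_field, le_div_iff₀ (sub_pos.2 h)] at this
  · simp [h]
  · have := hf.slope_le_of_hasDerivAt (Set.mem_univ y) (Set.mem_univ x) h hd
    rw [slope_def_field, div_le_iff₀ (sub_pos.2 h)] at this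
    linarith

end Crest.Agent.N337.Th

namespace Crest.Agent.N337

open Crest.MathPhysics.SpinModel Filter Topology Th

/-- The infinite-volume sandwich. -/
theorem sand_of (hF : FinVolStmt) (hT : ThermoStmt) : SandStmt := by
  intro d n J hd hn hJ p m hp hm
  obtain ⟨β₀, hβ₀, hF⟩ := hF d n J hd hn hJ
  obtain ⟨p', -, hp', -, hconv, htor⟩ := hT d n J (by omega) hn hJ
  refine ⟨β₀, hβ₀, fun β hβ => ?_⟩
  have hβ1 : 1 < β := hβ₀.trans_le hβ
  have hβ0 : 0 < β := by linarith
  have e : p' β = p β := funext fun h => tendsto_nhds_unique (hp' β hβ0 h) (hp β hβ0 h)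
  have hc := hconv β hβ0
  have ht := htor β hβ0
  rw [e] at hc ht
  intro η
  have hη0 : 0 < η := Real.rpow_pos_of_pos hβ0 _
  have hη1 : η < 1 := Real.rpow_lt_one_of_one_lt_of_neg hβ1 (by norm_num)
  have hβp : 0 < β * (1 + η) := by positivity
  have hβm : 0 < β * (1 - η) := mul_pos hβ0 (by linarith)
  have htan : ∀ (L : ℕ) (x y : ℝ), (spinVal n - ev n (torJ J (L + 1)) β x (num n 0)) * (y - x) ≤
      press n (torJ J (L + 1)) β y - press n (torJ J (L + 1)) β x := fun L x y =>
    tangent_le (convexOn_press _ hβ0.le) (hasDerivAt_press_tor n hβ0.ne' x)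
  -- lower bounds on `m`
  have hlow : ∀ B : ℝ, (∀ h > 0, ∃ u : ℕ → ℝ, ∃ u₀ ≤ B, Tendsto u atTop (𝓝 u₀) ∧
      ∀ᶠ L in atTop, ev n (torJ J (L + 1)) β h (num n 0) ≤ u L) → spinVal n - m β ≤ B := by
    intro B hB
    have h1 : ∀ x y, 0 < x → x < y → (spinVal n - B) * (y - x) ≤ p β y - p β x := by
      intro x y hx hxy
      obtain ⟨u, u₀, hu, hu1, hu2⟩ := hB x hx
      refine le_trans (mul_le_mul_of_nonneg_right (sub_le_sub_left hu _) (by linarith)) ?_
      refine le_of_tendsto_of_tendsto ((hu1.const_sub _).mul_const _) ((ht y).sub (ht x)) ?_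
      filter_upwards [hu2] with L hL
      exact le_trans (mul_le_mul_of_nonneg_right (sub_le_sub_left hL _) (by linarith)) (htan L x y)
    have h2 : ∀ y, 0 < y → (spinVal n - B) * (y - 0) ≤ p β y - p β 0 := by
      intro y hy
      have hcont : Continuous (p β) := continuousOn_univ.1 (hc.continuousOn isOpen_univ)
      refine le_of_tendsto_of_tendsto (b := 𝓝[>] (0 : ℝ))
        (f := fun x => (spinVal n - B) * (y - x)) (g := fun x => p β y - p β x)
        (Tendsto.mono_left (Continuous.tendsto (by fun_prop) 0) nhdsWithin_le_nhds)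
        (Tendsto.mono_left (Continuous.tendsto (by fun_prop) 0) nhdsWithin_le_nhds) ?_
      filter_upwards [Ioo_mem_nhdsGT hy] with x hx
      exact h1 x y hx.1 hx.2
    have h3 : spinVal n - B ≤ m β := by
      refine ge_of_tendsto (hm β hβ0) ?_
      filter_upwards [self_mem_nhdsWithin] with y hy
      rw [le_div_iff₀ hy]
      simpa using h2 y hy
    linarith
  have hev : ∀ h > 0, ∀ᶠ L in atTop, ev n (torJ J (L + 1)) β h (num n 0) ≤ η ∧
      (1 - η) * nTor n J (L + 1) (β * (1 + η)) h ≤ ev n (torJ J (L + 1)) β h (num n 0) ∧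
      ev n (torJ J (L + 1)) β h (num n 0) ≤
        nTor n J (L + 1) (β * (1 - η)) h + β ^ (-(11 / 4 : ℝ)) := by
    intro h hh
    obtain ⟨L₀, hL₀⟩ := hF β hβ h hh
    filter_upwards [eventually_ge_atTop L₀] with L hL
    exact hL₀ (L + 1) (by omega)
  refine ⟨hlow _ fun h hh => ⟨fun _ => η, η, le_rfl, tendsto_const_nhds,
    (hev h hh).mono fun L hL => hL.1⟩, ?_, hlow _ fun h hh => ⟨_, _, add_le_add_left
      (nInf_le hd hJ hn hβm hh.le) _, (tendsto_nTor hJ n hβm hh).add_const _,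
      (hev h hh).mono fun L hL => hL.2.2⟩⟩
  refine le_of_tendsto_of_tendsto ((tendsto_nInf hd hJ hn hβp).const_mul (1 - η))
    ((hm β hβ0).const_sub (spinVal n)) ?_
  filter_upwards [self_mem_nhdsWithin] with h hh
  have hh' : 0 < h := hh
  have h1 : p β h - p β 0 ≤ (spinVal n - (1 - η) * nInf n J (β * (1 + η)) h) * h := by
    refine le_of_tendsto_of_tendsto ((ht h).sub (ht 0))
      ((((tendsto_nTor hJ n hβp hh').const_mul (1 - η)).const_sub _).mul_const h) ?_
    filter_upwards [hev h hh'] with L hL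
    have := htan L h 0
    nlinarith [hL.2.1]
  rw [← div_le_iff₀ hh'] at h1
  linarith

/-- The infinite-volume sandwich from the finite-volume one. -/
theorem sand (hF : FinVolStmt) : SandStmt := sand_of hF thermo

end Crest.Agent.N337
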