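import Crest.Agent.N337.Basic
import Crest.Agent.R331.VarExp_376

/-!
# Row 337, thermodynamic limit, finite part (helper43)

`lz = log Zp` is Lipschitz in the coupling, additive over decoupled parts; packing lemma.
-/

set_option autoImplicit false

namespace Crest.Agent.N337.Th

open Crest.MathPhysics.SpinModel Matrix
open scoped Kronecker

/-- `log Z`. -/
noncomputable def lz {X : Type} [Fintype X] [DecidableEq X] (n : ℕ) (J : X → X → ℝ) (β h : ℝ) : ℝ :=
  Real.log (Zp n J β h)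

section lip

variable {X : Type} [Fintype X] [DecidableEq X] {n : ℕ} (J : X → X → ℝ) (β h : ℝ)

theorem abs_ev_diagonal_le (d : (X → Fin (n + 1)) → ℝ) {K : ℝ} (hK : ∀ σ, |d σ| ≤ K) :
    |ev n J β h (diagonal fun σ => ((d σ : ℝ) : ℂ))| ≤ K := by
  rw [ev_diagonal, abs_div, abs_of_pos (Zp_pos J β h), div_le_iff₀ (Zp_pos J β h), Zp_eq,
    Finset.mul_sum]
  refine (Finset.abs_sum_le_sum_abs _ _).trans (Finset.sum_le_sum fun σ _ => ?_)
  have := mul_pos (W_diag_pos (n := n) J 0 β σ) (Real.exp_pos (β * h * mval n σ))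
  rw [abs_mul, abs_of_pos this]
  exact mul_le_mul_of_nonneg_right (hK σ) this.le

theorem abs_le_of_sq_le_mul {a b c K : ℝ} (h : a ^ 2 ≤ b * c) (hb : |b| ≤ K) (hc : |c| ≤ K) :
    |a| ≤ K := by
  have hK : 0 ≤ K := (abs_nonneg b).trans hb
  refine abs_le_of_sq_le_sq (h.trans ((le_abs_self _).trans ?_)) hK
  rw [abs_mul, sq]
  exact mul_le_mul hb hc (abs_nonneg _) hK

theorem abs_ev_spinDot_le (x y : X) :
    |ev n J β h (spinDotOn n x y)| ≤ 2 * ((n : ℝ) + 1) ^ 2 := by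
  have hn : (0 : ℝ) ≤ n := Nat.cast_nonneg n
  have h1 : |ev n J β h (Sz n x * Sz n y)| ≤ ((n : ℝ) + 1) ^ 2 := by
    rw [Sz_eq, Sz_eq, diagonal_mul_diagonal]
    simp only [← Complex.ofReal_mul]
    refine abs_ev_diagonal_le J β h _ fun σ => ?_
    have hl : ∀ z, |levelM n (σ z)| ≤ n + 1 := fun z => by
      have := lev_le σ z
      have h0 : (0 : ℝ) ≤ (σ z : ℕ) := Nat.cast_nonneg _
      rw [levelM, abs_le]; constructor <;> linarith
    rw [abs_mul, sq]
    exact mul_le_mul (hl x) (hl y) (abs_nonneg _) (by linarith)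
  have h2 : ∀ z, |ev n J β h (Sp n z * Sm n z)| ≤ ((n : ℝ) + 1) ^ 2 := fun z => by
    rw [Sp_mul_Sm_eq]
    refine abs_ev_diagonal_le J β h _ fun σ => ?_
    have := lev_le σ z
    have h0 : (0 : ℝ) ≤ (σ z : ℕ) := Nat.cast_nonneg _
    rw [abs_of_nonneg (mul_nonneg (by linarith) h0)]
    nlinarith
  have h3 : ∀ z, |ev n J β h (Sm n z * Sp n z)| ≤ ((n : ℝ) + 1) ^ 2 := fun z => by
    rw [Sm_mul_Sp_eq]
    refine abs_ev_diagonal_le J β h _ fun σ => ?_
    have := lev_le σ z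
    have h0 : (0 : ℝ) ≤ (σ z : ℕ) := Nat.cast_nonneg _
    rw [abs_of_nonneg (mul_nonneg (by linarith) (by linarith))]
    nlinarith
  have h4 : |ev n J β h (Sp n x * Sm n y)| ≤ ((n : ℝ) + 1) ^ 2 := by
    have := ev_cs J β h (Sm n x) (Sm n y)
    simp only [Sm_conjTranspose] at this
    exact abs_le_of_sq_le_mul this (h2 x) (h2 y)
  have h5 : |ev n J β h (Sm n x * Sp n y)| ≤ ((n : ℝ) + 1) ^ 2 := by
    have := ev_cs J β h (Sp n x) (Sp n y)
    simp only [Sp_conjTranspose] at this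
    exact abs_le_of_sq_le_mul this (h3 x) (h3 y)
  have e : (1 / 2 : ℂ) = ((1 / 2 : ℝ) : ℂ) := by push_cast; rfl
  rw [spinDotOn_eq, ev_add, e, ev_smul, ev_add]
  rw [abs_le] at h1 h4 h5 ⊢
  constructor <;> linarith [h1.1, h1.2, h4.1, h4.2, h5.1, h5.2]

theorem abs_ev_ham_le (D : X → X → ℝ) :
    |ev n J β h (ham n D)| ≤ ((n : ℝ) + 1) ^ 2 * ∑ x, ∑ y, |D x y| := by
  have e : -(1 / 2 : ℂ) = ((-(1 / 2) : ℝ) : ℂ) := by push_cast; rfl
  rw [ham, e, ev_smul, ev_sum, abs_mul, Finset.mul_sum]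
  have : |∑ x, ev n J β h (∑ y, ((D x y : ℝ) : ℂ) • spinDotOn n x y)| ≤
      ∑ x, 2 * (((n : ℝ) + 1) ^ 2 * ∑ y, |D x y|) := by
    refine (Finset.abs_sum_le_sum_abs _ _).trans (Finset.sum_le_sum fun x _ => ?_)
    rw [ev_sum, ← mul_assoc, Finset.mul_sum]
    refine (Finset.abs_sum_le_sum_abs _ _).trans (Finset.sum_le_sum fun y _ => ?_)
    rw [ev_smul, abs_mul, mul_comm]
    exact mul_le_mul_of_nonneg_right (abs_ev_spinDot_le J β h x y) (abs_nonneg _)
  rw [← Finset.mul_sum] at this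
  rw [abs_neg, abs_of_pos (by norm_num : (0 : ℝ) < 1 / 2)]
  linarith

theorem hamF_line (D : X → X → ℝ) (t : ℝ) :
    (-(β : ℂ)) • hamF n (fun x y => J x y + t * D x y) h =
      (-(β : ℂ)) • hamF n J h + t • ((-(β : ℂ)) • ham n D) := by
  have : ham n (fun x y => J x y + t * D x y) = ham n J + (t : ℂ) • ham n D := by
    simp only [ham, Complex.ofReal_add, Complex.ofReal_mul, add_smul, Finset.sum_add_distrib,
      smul_add, mul_smul, ← Finset.smul_sum]
    rw [smul_comm (t : ℂ)]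
  rw [hamF, hamF, this, ← Complex.coe_smul]
  module

theorem hasDerivAt_lz (D : X → X → ℝ) (t : ℝ) :
    HasDerivAt (fun t => lz n (fun x y => J x y + t * D x y) β h)
      (-β * ev n (fun x y => J x y + t * D x y) β h (ham n D)) t := by
  have h1 := Crest.Agent.R331.Var376.hasDerivAt_trace_exp ((-(β : ℂ)) • hamF n J h)
    ((-(β : ℂ)) • ham n D) t
  simp only [← hamF_line] at h1
  have h2 := Complex.reCLM.hasFDerivAt.comp_hasDerivAt t h1
  have h3 : HasDerivAt (fun t => Zp n (fun x y => J x y + t * D x y) β h) _ t := h2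
  refine (h3.log (Zp_pos _ β h).ne').congr_deriv ?_
  rw [ev, Matrix.trace_mul_comm (ham n D), Matrix.mul_smul, Matrix.trace_smul, mul_div_assoc']
  congr 1
  simp [W]

theorem abs_lz_sub_le (J' : X → X → ℝ) :
    |lz n J' β h - lz n J β h| ≤ |β| * ((n : ℝ) + 1) ^ 2 * ∑ x, ∑ y, |J' x y - J x y| := by
  have := norm_image_sub_le_of_norm_deriv_le_segment_01'
    (fun t _ => (hasDerivAt_lz (n := n) J β h (fun x y => J' x y - J x y) t).hasDerivWithinAt)
    (C := |β| * ((n : ℝ) + 1) ^ 2 * ∑ x, ∑ y, |J' x y - J x y|) fun t _ => by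
      rw [Real.norm_eq_abs, abs_mul, abs_neg, mul_assoc]
      exact mul_le_mul_of_nonneg_left (abs_ev_ham_le _ β h _) (abs_nonneg _)
  simpa using this

end lip

section add

variable {a b : Type} [Fintype a] [DecidableEq a] [Fintype b] [DecidableEq b]

/-- `A ↦ A ⊗ 1`. -/
noncomputable def kL (a b : Type) [Fintype a] [DecidableEq a] [Fintype b] [DecidableEq b] :
    Matrix a a ℂ →ₐ[ℂ] Matrix (a × b) (a × b) ℂ where
  toFun A := A ⊗ₖ (1 : Matrix b b ℂ)
  map_one' := one_kronecker_one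
  map_mul' A B := by rw [← mul_kronecker_mul, Matrix.mul_one]
  map_zero' := zero_kronecker _
  map_add' A B := add_kronecker _ _ _
  commutes' c := by simp only [Algebra.algebraMap_eq_smul_one, smul_kronecker, one_kronecker_one]

/-- `B ↦ 1 ⊗ B`. -/
noncomputable def kR (a b : Type) [Fintype a] [DecidableEq a] [Fintype b] [DecidableEq b] :
    Matrix b b ℂ →ₐ[ℂ] Matrix (a × b) (a × b) ℂ where
  toFun B := (1 : Matrix a a ℂ) ⊗ₖ B
  map_one' := one_kronecker_one
  map_mul' A B := by rw [← mul_kronecker_mul, Matrix.mul_one]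
  map_zero' := kronecker_zero _
  map_add' A B := kronecker_add _ _ _
  commutes' c := by simp only [Algebra.algebraMap_eq_smul_one, kronecker_smul, one_kronecker_one]

theorem algHom_exp (f : Matrix a a ℂ →ₐ[ℂ] Matrix b b ℂ) (A : Matrix a a ℂ) :
    f (NormedSpace.exp A) = NormedSpace.exp (f A) := by
  open scoped Matrix.Norms.Operator in
  exact NormedSpace.map_exp f f.toLinearMap.continuous_of_finiteDimensional A

theorem trace_exp_kron (A : Matrix a a ℂ) (B : Matrix b b ℂ) :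
    (NormedSpace.exp (kL a b A + kR a b B)).trace =
      (NormedSpace.exp A).trace * (NormedSpace.exp B).trace := by
  have e : ∀ (A : Matrix a a ℂ) (B : Matrix b b ℂ), kL a b A * kR a b B = A ⊗ₖ B := fun A B => by
    change A ⊗ₖ 1 * 1 ⊗ₖ B = _
    rw [← mul_kronecker_mul, Matrix.mul_one, Matrix.one_mul]
  have hc : Commute (kL a b A) (kR a b B) := by
    rw [Commute, SemiconjBy, e]
    change _ = 1 ⊗ₖ B * A ⊗ₖ 1
    rw [← mul_kronecker_mul, Matrix.mul_one, Matrix.one_mul]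
  rw [Matrix.exp_add_of_commute _ _ hc, ← algHom_exp, ← algHom_exp, e, trace_kronecker]

variable {X Y : Type} [Fintype X] [DecidableEq X] [Fintype Y] [DecidableEq Y] {n : ℕ}

/-- Block diagonal coupling. -/
def sumJ (J : X → X → ℝ) (K : Y → Y → ℝ) : X ⊕ Y → X ⊕ Y → ℝ
  | .inl x, .inl x' => J x x'
  | .inr y, .inr y' => K y y'
  | _, _ => 0

/-- Operators on the sum of two site sets as operators on pairs of configurations. -/
noncomputable def spl (X Y : Type) [Fintype X] [DecidableEq X] [Fintype Y] [DecidableEq Y] (n : ℕ) :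
    Op (X ⊕ Y) n ≃ₐ[ℂ]
      Matrix ((X → Fin (n + 1)) × (Y → Fin (n + 1))) ((X → Fin (n + 1)) × (Y → Fin (n + 1))) ℂ :=
  Matrix.reindexAlgEquiv ℂ ℂ (Equiv.sumArrowEquivProdArrow X Y (Fin (n + 1)))

theorem spl_inl (x : X) (A : Matrix (Fin (n + 1)) (Fin (n + 1)) ℂ) :
    spl X Y n (siteOpOn (.inl x) A) = kL _ _ (siteOpOn x A) := by
  ext ⟨σ, τ⟩ ⟨σ', τ'⟩
  change siteOpOn (Sum.inl x) A (Sum.elim σ τ) (Sum.elim σ' τ') =
    siteOpOn x A σ σ' * (1 : Matrix _ _ ℂ) τ τ'
  have e : (∀ y, y ≠ Sum.inl x → Sum.elim σ τ y = Sum.elim σ' τ' y) ↔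
      (∀ y, y ≠ x → σ y = σ' y) ∧ τ = τ' := by simp [funext_iff]
  rw [site_apply, site_apply, Matrix.one_apply, if_congr e rfl rfl, ite_and]
  split_ifs <;> simp

theorem spl_inr (y : Y) (A : Matrix (Fin (n + 1)) (Fin (n + 1)) ℂ) :
    spl X Y n (siteOpOn (.inr y) A) = kR _ _ (siteOpOn y A) := by
  ext ⟨σ, τ⟩ ⟨σ', τ'⟩
  change siteOpOn (Sum.inr y) A (Sum.elim σ τ) (Sum.elim σ' τ') =
    (1 : Matrix _ _ ℂ) σ σ' * siteOpOn y A τ τ'
  have e : (∀ z, z ≠ Sum.inr y → Sum.elim σ τ z = Sum.elim σ' τ' z) ↔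
      σ = σ' ∧ (∀ z, z ≠ y → τ z = τ' z) := by simp [funext_iff]
  rw [site_apply, site_apply, Matrix.one_apply, if_congr e rfl rfl, ite_and]
  split_ifs <;> simp

theorem spl_hamF (J : X → X → ℝ) (K : Y → Y → ℝ) (h : ℝ) :
    spl X Y n (hamF n (sumJ J K) h) = kL _ _ (hamF n J h) + kR _ _ (hamF n K h) := by
  simp only [hamF, ham, magn, spinDotOn_eq, Sz, Sp, Sm, Fintype.sum_sum_type, sumJ, map_sub,
    map_smul, map_add, map_sum, map_mul, spl_inl, spl_inr, Complex.ofReal_zero, zero_smul,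
    Finset.sum_const_zero, add_zero, zero_add, smul_add]
  abel

theorem W_trace_im (J : X → X → ℝ) (h t : ℝ) : (W n J h t).trace.im = 0 := by
  simp only [Matrix.trace, Matrix.diag_apply, Complex.im_sum]
  exact Finset.sum_eq_zero fun σ _ => (gW_diag_pos (hamF_herm J h) t σ).1

theorem Zp_sumJ (J : X → X → ℝ) (K : Y → Y → ℝ) (β h : ℝ) :
    Zp n (sumJ J K) β h = Zp n J β h * Zp n K β h := by
  have h1 : (W n (sumJ J K) h β).trace = (W n J h β).trace * (W n K h β).trace := by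
    have e : (W n (sumJ J K) h β).trace = (spl X Y n (W n (sumJ J K) h β)).trace :=
      (Fintype.sum_equiv (Equiv.sumArrowEquivProdArrow X Y (Fin (n + 1))) _ _ fun σ => by
        simp [spl])
    have e2 : spl X Y n (NormedSpace.exp ((-(β : ℂ)) • hamF n (sumJ J K) h)) =
        NormedSpace.exp (spl X Y n ((-(β : ℂ)) • hamF n (sumJ J K) h)) :=
      algHom_exp (spl X Y n).toAlgHom _
    rw [e, W, e2, map_smul, spl_hamF, smul_add, ← map_smul, ← map_smul, trace_exp_kron]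
    rfl
  rw [Zp, h1, Complex.mul_re, W_trace_im, zero_mul, sub_zero]
  rfl

theorem lz_sumJ (J : X → X → ℝ) (K : Y → Y → ℝ) (β h : ℝ) :
    lz n (sumJ J K) β h = lz n J β h + lz n K β h := by
  rw [lz, Zp_sumJ, Real.log_mul (Zp_pos _ _ _).ne' (Zp_pos _ _ _).ne']
  rfl

theorem lz_reix {J : X → X → ℝ} {K : Y → Y → ℝ} (e : X ≃ Y) (he : ∀ x y, K (e x) (e y) = J x y)
    (β h : ℝ) : lz n K β h = lz n J β h := by rw [lz, lz, Zp_reix he]

theorem lz_empty [IsEmpty X] (J : X → X → ℝ) (β h : ℝ) : lz n J β h = 0 := by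
  simp [lz, Zp, W, hamF, ham, magn]

/-- Disjoint copies of a system. -/
def copJ (I : Type) [DecidableEq I] (K : Y → Y → ℝ) (p q : I × Y) : ℝ :=
  if p.1 = q.1 then K p.2 q.2 else 0

theorem lz_copJ_fin (K : Y → Y → ℝ) (β h : ℝ) (k : ℕ) :
    lz n (copJ (Fin k) K) β h = k * lz n K β h := by
  induction k with
  | zero => rw [lz_empty]; simp
  | succ k ih =>
    let e : Y ⊕ Fin k × Y ≃ Fin (k + 1) × Y :=
      { toFun := Sum.elim (fun y => (0, y)) fun p => (p.1.succ, p.2)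
        invFun := fun p => Fin.cases (Sum.inl p.2) (fun i => Sum.inr (i, p.2)) p.1
        left_inv := by rintro (y | ⟨i, y⟩) <;> rfl
        right_inv := by
          rintro ⟨i, y⟩
          induction i using Fin.cases <;> rfl }
    rw [lz_reix (J := sumJ K (copJ (Fin k) K)) e, lz_sumJ, ih]
    · push_cast; ring
    · rintro (x | ⟨i, x⟩) (y | ⟨j, y⟩) <;>
        simp [e, sumJ, copJ, (Fin.succ_ne_zero _).symm]

theorem lz_copJ (I : Type) [Fintype I] [DecidableEq I] (K : Y → Y → ℝ) (β h : ℝ) :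
    lz n (copJ I K) β h = Fintype.card I * lz n K β h := by
  rw [← lz_copJ_fin]
  refine (lz_reix ((Fintype.equivFin I).prodCongr (Equiv.refl Y)) (fun p q => ?_) β h).symm
  simp [copJ]

theorem lz_zero (β h : ℝ) :
    lz n (fun _ _ : X => (0 : ℝ)) β h = Fintype.card X * lz n (fun _ _ : Unit => (0 : ℝ)) β h := by
  rw [← lz_copJ]
  exact lz_reix (Equiv.prodUnique X Unit) (fun p q => by simp [copJ]) β h

/-- Packing lemma. -/
theorem packing {I : Type} [Fintype I] [DecidableEq I] (J : X → X → ℝ) (K : Y → Y → ℝ)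
    (E : I × Y → X) (hE : Function.Injective E) (hJ : ∀ x y, 0 ≤ J x y)
    (hle : ∀ i y y', K y y' ≤ J (E (i, y)) (E (i, y'))) (β h : ℝ) :
    |lz n J β h - Fintype.card I * lz n K β h| ≤
      |β| * ((n : ℝ) + 1) ^ 2 * (∑ x, ∑ y, J x y - Fintype.card I * ∑ y, ∑ y', K y y') +
      |lz n (fun _ _ : Unit => (0 : ℝ)) β h| *
        (Fintype.card X - Fintype.card I * Fintype.card Y) := by
  classical
  let R := {x // x ∉ Set.range E}
  let e : (I × Y) ⊕ R ≃ X :=
    ((Equiv.ofInjective E hE).sumCongr (Equiv.refl R)).trans (Equiv.sumCompl (· ∈ Set.range E))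
  let J₁ : (I × Y) ⊕ R → (I × Y) ⊕ R → ℝ := fun x y => J (e x) (e y)
  let J₀ : (I × Y) ⊕ R → (I × Y) ⊕ R → ℝ := sumJ (copJ I K) fun _ _ => 0
  have h1 : lz n J β h = lz n J₁ β h := lz_reix e (fun _ _ => rfl) β h
  have h2 : lz n J₀ β h = Fintype.card I * lz n K β h +
      Fintype.card R * lz n (fun _ _ : Unit => (0 : ℝ)) β h := by
    rw [lz_sumJ, lz_copJ, lz_zero]
  have h3 : (Fintype.card X : ℝ) = Fintype.card I * Fintype.card Y + Fintype.card R := by
    rw [← Fintype.card_congr e, Fintype.card_sum, Fintype.card_prod]; push_cast; rfl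
  have h4 : ∀ x y, J₀ x y ≤ J₁ x y := by
    rintro (⟨i, x⟩ | x) (⟨j, y⟩ | y)
    · change (if i = j then K x y else 0) ≤ J (E (i, x)) (E (j, y))
      split_ifs with hij
      · subst hij; exact hle i x y
      · exact hJ _ _
    all_goals exact hJ _ _
  have h5 : ∑ x, ∑ y, |J₁ x y - J₀ x y| = ∑ x, ∑ y, J x y - Fintype.card I * ∑ y, ∑ y', K y y' := by
    simp only [fun x y => abs_of_nonneg (sub_nonneg.2 (h4 x y)), Finset.sum_sub_distrib]
    congr 1
    · exact Fintype.sum_equiv e _ _ fun x => Fintype.sum_equiv e _ _ fun y => rfl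
    · simp [J₀, sumJ, copJ, Fintype.sum_sum_type, Fintype.sum_prod_type, Finset.sum_comm (γ := I),
        Finset.mul_sum]
  have h6 := abs_lz_sub_le (n := n) J₀ β h J₁
  rw [h5, h2, ← h1] at h6
  rw [h3, add_sub_cancel_left]
  have h7 : |Fintype.card R * lz n (fun _ _ : Unit => (0 : ℝ)) β h| =
      |lz n (fun _ _ : Unit => (0 : ℝ)) β h| * Fintype.card R := by
    rw [abs_mul, Nat.abs_cast, mul_comm]
  rw [← h7]
  have := abs_add_le (lz n J β h - (Fintype.card I * lz n K β h +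
    Fintype.card R * lz n (fun _ _ : Unit => (0 : ℝ)) β h))
    (Fintype.card R * lz n (fun _ _ : Unit => (0 : ℝ)) β h)
  rw [show lz n J β h - (Fintype.card I * lz n K β h +
    Fintype.card R * lz n (fun _ _ : Unit => (0 : ℝ)) β h) +
    Fintype.card R * lz n (fun _ _ : Unit => (0 : ℝ)) β h =
    lz n J β h - Fintype.card I * lz n K β h by ring] at this
  linarith

end add

end Crest.Agent.N337.Th
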