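import Crest.Agent.N337.Th.Fin
import Crest.Agent.N337.Free.Tor

/-!
# Row 337: `thermo : ThermoStmt` (helper43)
-/

set_option autoImplicit false

namespace Crest.Agent.N337.Th

open Crest.MathPhysics.SpinModel Filter Topology Free

/-! ### abstract limit -/

/-- `g` is asymptotically within `δ l` of `a l`. -/
def Appr (a δ g : ℕ → ℝ) : Prop := ∀ l, 1 ≤ l → ∀ ε > 0, ∀ᶠ L in atTop, |g L - a l| ≤ δ l + ε

theorem Appr.tendsto {a δ g : ℕ → ℝ} (hg : Appr a δ g) (hδ : Tendsto δ atTop (𝓝 0)) {p : ℝ}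
    (ha : Tendsto a atTop (𝓝 p)) : Tendsto g atTop (𝓝 p) := by
  refine Metric.tendsto_nhds.2 fun ε hε => ?_
  obtain ⟨l, ⟨h1, h2⟩, h3⟩ := (((Metric.tendsto_nhds.1 ha (ε / 4) (by linarith)).and
    (hδ.eventually_le_const (show (0 : ℝ) < ε / 4 by linarith))).and (eventually_ge_atTop 1)).exists
  filter_upwards [hg l h3 (ε / 4) (by linarith)] with L hL
  rw [Real.dist_eq] at h1 ⊢
  have := abs_sub_le (g L) (a l) p
  linarith

theorem Appr.exists_tendsto {a δ : ℕ → ℝ} (hg : Appr a δ a) (hδ : Tendsto δ atTop (𝓝 0)) :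
    ∃ p, Tendsto a atTop (𝓝 p) := by
  refine cauchySeq_tendsto_of_complete (Metric.cauchySeq_iff.2 fun ε hε => ?_)
  obtain ⟨l, h2, h3⟩ := ((hδ.eventually_le_const (show (0 : ℝ) < ε / 8 by linarith)).and
    (eventually_ge_atTop 1)).exists
  obtain ⟨N, hN⟩ := eventually_atTop.1 (hg l h3 (ε / 8) (by linarith))
  refine ⟨N, fun m hm k hk => ?_⟩
  have h4 := hN m hm
  have h5 := hN k hk
  rw [Real.dist_eq]
  rw [abs_sub_comm] at h5
  have := abs_sub_le (a m) (a l) (a k)
  linarith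

theorem tendsto_fill {l : ℕ} (hl : 1 ≤ l) :
    Tendsto (fun L : ℕ => (((L / l : ℕ) : ℝ) * l) / L) atTop (𝓝 1) := by
  have h1 : Tendsto (fun L : ℕ => 1 - (l : ℝ) / L) atTop (𝓝 1) := by
    simpa using (tendsto_const_div_atTop_nhds_zero_nat (l : ℝ)).const_sub 1
  refine tendsto_of_tendsto_of_tendsto_of_le_of_le' h1 tendsto_const_nhds ?_ ?_
  · filter_upwards [eventually_ge_atTop 1] with L hL
    have hL' : (0 : ℝ) < L := by exact_mod_cast hL
    have h2 : L ≤ L / l * l + l := by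
      have := Nat.div_add_mod' L l
      have := Nat.mod_lt L hl
      omega
    have h3 : (L : ℝ) ≤ ((L / l : ℕ) : ℝ) * l + l := by exact_mod_cast h2
    rw [le_div_iff₀ hL', sub_mul, div_mul_cancel₀ _ hL'.ne']
    linarith
  · filter_upwards [eventually_ge_atTop 1] with L hL
    have hL' : (0 : ℝ) < L := by exact_mod_cast hL
    rw [div_le_one hL']
    exact_mod_cast Nat.div_mul_le_self L l

/-! ### boxes -/

variable {d : ℕ} {J : (Fin d → ℤ) → ℝ}

/-- The coupling on a box of side `l`. -/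
def boxJ (J : (Fin d → ℤ) → ℝ) (l : ℕ) (x y : Fin d → Fin l) : ℝ :=
  J fun a => ((y a : ℕ) : ℤ) - (x a : ℕ)

theorem sum_boxJ (hJ : Coup J) (l : ℕ) (x : Fin d → Fin l) : ∑ y, boxJ J l x y =
    ∑ z ∈ sp hJ, J z * ∑ y : Fin d → Fin l,
      if (fun a => ((y a : ℕ) : ℤ) - (x a : ℕ)) = z then 1 else 0 := by
  simp only [Finset.mul_sum, mul_ite, mul_one, mul_zero]
  rw [Finset.sum_comm]
  refine Finset.sum_congr rfl fun y _ => ?_
  rw [Finset.sum_ite_eq]
  split_ifs with h
  · rfl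
  · exact not_not.1 fun h' => h ((mem_sp hJ).2 h')

theorem sum_boxJ_le (hJ : Coup J) (l : ℕ) (x : Fin d → Fin l) :
    ∑ y, boxJ J l x y ≤ ∑ z ∈ sp hJ, J z := by
  rw [sum_boxJ hJ]
  refine Finset.sum_le_sum fun z _ => mul_le_of_le_one_right (hJ.nonneg z) ?_
  rw [Finset.sum_boole, Nat.cast_le_one]
  refine Finset.card_le_one.2 fun y hy y' hy' => ?_
  have h := ((Finset.mem_filter.1 hy).2).trans (Finset.mem_filter.1 hy').2.symm
  funext a
  have := congrFun h a
  simp only [sub_left_inj, Nat.cast_inj] at this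
  exact Fin.ext this

theorem le_sum_boxJ (hJ : Coup J) {r : ℕ} (hr : ∀ z ∈ sp hJ, ∀ a, (z a).natAbs ≤ r) (l : ℕ) :
    (((l - 2 * r : ℕ) : ℝ)) ^ d * ∑ z ∈ sp hJ, J z ≤ ∑ x, ∑ y, boxJ J l x y := by
  let ι : (Fin d → Fin (l - 2 * r)) → Fin d → Fin l := fun u a => ⟨u a + r, by
    have := (u a).2; omega⟩
  have hι : Function.Injective ι := fun u v h => funext fun a => by
    have := congrArg Fin.val (congrFun h a)
    simp only [ι] at this
    exact Fin.ext (by omega)
  have h1 : ∀ u, ∑ z ∈ sp hJ, J z ≤ ∑ y, boxJ J l (ι u) y := fun u => by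
    rw [sum_boxJ hJ]
    refine Finset.sum_le_sum fun z hz => le_mul_of_one_le_right (hJ.nonneg z) ?_
    rw [Finset.sum_boole, Nat.one_le_cast]
    refine Finset.card_pos.2 ⟨fun a => ⟨((u a : ℕ) + r + z a).toNat, ?_⟩,
      Finset.mem_filter.2 ⟨Finset.mem_univ _, funext fun a => ?_⟩⟩
    · have := (u a).2
      have := hr z hz a
      omega
    · have := hr z hz a
      simp only [ι]
      omega
  calc _ = ∑ _u : Fin d → Fin (l - 2 * r), ∑ z ∈ sp hJ, J z := by simp
    _ ≤ ∑ u, ∑ y, boxJ J l (ι u) y := Finset.sum_le_sum fun u _ => h1 u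
    _ = ∑ x ∈ Finset.univ.image ι, ∑ y, boxJ J l x y :=
        (Finset.sum_image (f := fun x => ∑ y, boxJ J l x y) hι.injOn).symm
    _ ≤ _ := Finset.sum_le_sum_of_subset_of_nonneg (Finset.subset_univ _) fun x _ _ =>
        Finset.sum_nonneg fun y _ => hJ.nonneg _

/-- Position of the site `b` of the cell `i`. -/
def cell {L l : ℕ} (p : (Fin d → Fin (L / l)) × (Fin d → Fin l)) (a : Fin d) : Fin L :=
  ⟨p.1 a * l + p.2 a, by
    have h1 := (p.1 a).2
    have h2 := (p.2 a).2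
    have h3 := Nat.div_mul_le_self L l
    nlinarith⟩

theorem cell_injective {L l : ℕ} :
    Function.Injective (cell : (Fin d → Fin (L / l)) × (Fin d → Fin l) → Fin d → Fin L) := by
  intro p q h
  have key : ∀ a, (p.1 a).1 = q.1 a ∧ (p.2 a).1 = q.2 a := fun a => by
    have h0 : (p.1 a).1 * l + p.2 a = (q.1 a).1 * l + q.2 a := congrArg Fin.val (congrFun h a)
    have h1 := (p.2 a).2
    have h2 := (q.2 a).2
    have h3 : (p.2 a).1 = q.2 a := by
      have := congrArg (· % l) h0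
      simpa [Nat.mod_eq_of_lt h1, Nat.mod_eq_of_lt h2] using this
    refine ⟨Nat.eq_of_mul_eq_mul_right (show 0 < l by omega) (by omega), h3⟩
  exact Prod.ext (funext fun a => Fin.ext (key a).1) (funext fun a => Fin.ext (key a).2)

/-- The comparison with small boxes. -/
theorem appr_of_pack (hJ : Coup J) {r : ℕ} (hr : ∀ z ∈ sp hJ, ∀ a, (z a).natAbs ≤ r) (n : ℕ)
    (β h : ℝ) (s : ℕ → ℕ) (hs : Tendsto s atTop atTop) (X : ℕ → Type) [∀ L, Fintype (X L)]
    [∀ L, DecidableEq (X L)] (K : ∀ L, X L → X L → ℝ) (hc : ∀ L, Fintype.card (X L) = s L ^ d)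
    (hK : ∀ L x y, 0 ≤ K L x y) (hS : ∀ L x, ∑ y, K L x y ≤ ∑ z ∈ sp hJ, J z)
    (ι : ∀ L, (Fin d → Fin (s L)) → X L) (hι : ∀ L, Function.Injective (ι L))
    (hle : ∀ L x y, boxJ J (s L) x y ≤ K L (ι L x) (ι L y)) :
    Appr (fun l => lz n (boxJ J l) β h / (l : ℝ) ^ d)
      (fun l => |β| * ((n : ℝ) + 1) ^ 2 * ((∑ z ∈ sp hJ, J z) *
        (1 - (((l - 2 * r : ℕ) : ℝ) / l) ^ d)))
      (fun L => lz n (K L) β h / (s L : ℝ) ^ d) := by
  intro l hl ε hε
  have hl' : (0 : ℝ) < l := by exact_mod_cast hl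
  set c₁ := |β| * ((n : ℝ) + 1) ^ 2 with hc₁
  set c₂ := |lz n (fun _ _ : Unit => (0 : ℝ)) β h| with hc₂
  set N := ∑ z ∈ sp hJ, J z with hN
  set σ := (((l - 2 * r : ℕ) : ℝ) / l) ^ d with hσ
  set a := lz n (boxJ J l) β h / (l : ℝ) ^ d with ha
  let θ : ℕ → ℝ := fun L => ((((s L / l : ℕ) : ℝ) * l) / s L) ^ d
  have hθ : Tendsto θ atTop (𝓝 1) := by
    simpa using ((tendsto_fill hl).comp hs).pow d
  have hlim : Tendsto (fun L => c₁ * (N * (1 - θ L * σ)) + c₂ * (1 - θ L) + |(θ L - 1) * a|) atTop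
      (𝓝 (c₁ * (N * (1 - 1 * σ)) + c₂ * (1 - 1) + |(1 - 1) * a|)) :=
    (((((hθ.mul_const σ).const_sub 1).const_mul N).const_mul c₁).add
      ((hθ.const_sub 1).const_mul c₂)).add ((hθ.sub_const 1).mul_const a).abs
  simp only [one_mul, sub_self, mul_zero, zero_mul, abs_zero, add_zero] at hlim
  filter_upwards [hlim.eventually_le_const (lt_add_of_pos_right _ hε), hs.eventually_ge_atTop 1]
    with L h1 h2
  refine le_trans ?_ h1
  have hL : (0 : ℝ) < s L := by exact_mod_cast h2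
  have hV : (0 : ℝ) < (s L : ℝ) ^ d := by positivity
  have hp := packing (n := n) (K L) (boxJ J l) (fun p => ι L (cell p))
    ((hι L).comp cell_injective) (hK L) (fun i y y' => le_trans (le_of_eq ?_) (hle L _ _)) β h
  swap
  · simp only [boxJ, cell]
    congr 1
    funext a
    push_cast
    ring
  simp only [Fintype.card_fun, Fintype.card_fin, hc, Nat.cast_pow] at hp
  set m : ℝ := ((s L / l : ℕ) : ℝ) ^ d with hm
  have hm0 : 0 ≤ m := by positivity
  have e1 : θ L * (s L : ℝ) ^ d = m * (l : ℝ) ^ d := by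
    simp only [θ, hm]
    rw [div_pow, div_mul_cancel₀ _ hV.ne', mul_pow]
  have e2 : σ * (l : ℝ) ^ d = ((l - 2 * r : ℕ) : ℝ) ^ d := by
    rw [hσ, div_pow, div_mul_cancel₀ _ (by positivity)]
  have e3 : ∑ x, ∑ y, K L x y ≤ (s L : ℝ) ^ d * N := by
    refine (Finset.sum_le_sum fun x _ => hS L x).trans (le_of_eq ?_)
    simp [hc]
  have e4 := le_sum_boxJ hJ hr l
  rw [← e2, ← hN] at e4
  have e5 : lz n (boxJ J l) β h = a * (l : ℝ) ^ d := by
    rw [ha, div_mul_cancel₀ _ (by positivity)]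
  have e6 : |lz n (K L) β h / (s L : ℝ) ^ d - θ L * a| ≤
      c₁ * (N * (1 - θ L * σ)) + c₂ * (1 - θ L) := by
    rw [← mul_le_mul_iff_left₀ hV, ← abs_of_pos hV, ← abs_mul, abs_of_pos hV, sub_mul,
      div_mul_cancel₀ _ hV.ne', mul_right_comm, e1, mul_assoc m, mul_comm _ a, ← e5]
    refine hp.trans ?_
    have hc₁0 : 0 ≤ c₁ := by positivity
    have e7 : ∑ x, ∑ y, K L x y - m * ∑ x, ∑ y, boxJ J l x y ≤
        N * (1 - θ L * σ) * (s L : ℝ) ^ d := by
      have := mul_le_mul_of_nonneg_left e4 hm0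
      have e8 : N * (1 - θ L * σ) * (s L : ℝ) ^ d =
          (s L : ℝ) ^ d * N - m * (σ * (l : ℝ) ^ d * N) := by
        linear_combination (-N * σ) * e1
      linarith
    have e9 : c₂ * ((s L : ℝ) ^ d - m * (l : ℝ) ^ d) = c₂ * (1 - θ L) * (s L : ℝ) ^ d := by
      linear_combination c₂ * e1
    rw [e9, add_mul, mul_assoc c₁]
    gcongr
  have := abs_sub_le (lz n (K L) β h / (s L : ℝ) ^ d) (θ L * a) a
  rw [show θ L * a - a = (θ L - 1) * a by ring] at this
  linarith

theorem tendsto_delta (r : ℕ) (c N : ℝ) :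
    Tendsto (fun l : ℕ => c * (N * (1 - (((l - 2 * r : ℕ) : ℝ) / l) ^ d))) atTop (𝓝 0) := by
  have h1 : Tendsto (fun l : ℕ => ((l - 2 * r : ℕ) : ℝ) / l) atTop (𝓝 1) := by
    have h2 : Tendsto (fun l : ℕ => 1 - ((2 * r : ℕ) : ℝ) / l) atTop (𝓝 1) := by
      simpa using (tendsto_const_div_atTop_nhds_zero_nat ((2 * r : ℕ) : ℝ)).const_sub 1
    refine h2.congr' ?_
    filter_upwards [eventually_ge_atTop (2 * r + 1)] with l hl
    have : (0 : ℝ) < l := by exact_mod_cast (show 0 < l by omega)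
    rw [Nat.cast_sub (by omega), sub_div, div_self this.ne']
  simpa using (((h1.pow d).const_sub 1).const_mul N).const_mul c

/-- The limit of `log Z / volume` along boxes and tori. -/
theorem exists_limit (hJ : Coup J) (n : ℕ) (β h : ℝ) : ∃ p : ℝ,
    Tendsto (fun l => lz n (boxJ J l) β h / (l : ℝ) ^ d) atTop (𝓝 p) ∧
    Tendsto (fun L => lz n (torJ J (L + 1)) β h / ((L + 1 : ℕ) : ℝ) ^ d) atTop (𝓝 p) := by
  set r := (sp hJ).sup fun z => Finset.univ.sup fun a => (z a).natAbs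
  have hr : ∀ z ∈ sp hJ, ∀ a, (z a).natAbs ≤ r := fun z hz a =>
    le_trans (Finset.le_sup (f := fun a => (z a).natAbs) (Finset.mem_univ a))
      (Finset.le_sup (f := fun z : Fin d → ℤ => Finset.univ.sup fun a => (z a).natAbs) hz)
  have h1 := appr_of_pack hJ hr n β h id tendsto_id (fun L => Fin d → Fin L) (boxJ J)
    (fun L => by simp) (fun L x y => hJ.nonneg _) (sum_boxJ_le hJ) (fun _ x => x)
    (fun _ => Function.injective_id) fun _ _ _ => le_rfl
  obtain ⟨p, hp⟩ := h1.exists_tendsto (tendsto_delta r _ _)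
  refine ⟨p, hp, Appr.tendsto (appr_of_pack hJ hr n β h (· + 1) (tendsto_add_atTop_nat 1)
    (fun L => Tor d (L + 1)) (fun L => torJ J (L + 1)) (fun L => card_Tor)
    (fun L => torJ_nonneg hJ) (fun L x => ?_) (fun L x a => ((x a : ℕ) : ZMod (L + 1)))
    (fun L x y hxy => ?_) fun L x y => ?_) (tendsto_delta r _ _) hp⟩
  · simpa using (sum_torJ_real hJ x fun _ => 1).le
  · funext a
    have := congrArg ZMod.val (congrFun hxy a)
    rw [ZMod.val_natCast, ZMod.val_natCast, Nat.mod_eq_of_lt (x a).2,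
      Nat.mod_eq_of_lt (y a).2] at this
    exact Fin.ext this
  · rw [torJ_eq hJ, boxJ]
    set z : Fin d → ℤ := fun a => ((y a : ℕ) : ℤ) - (x a : ℕ) with hz
    by_cases hm : z ∈ sp hJ
    · refine le_trans (le_of_eq (if_pos ?_).symm) (Finset.single_le_sum
        (f := fun w => if tcast (L + 1) w = _ then J w else 0) (fun w _ => ?_) hm)
      · funext a
        simp [tcast, hz]
      · split_ifs; exacts [hJ.nonneg w, le_rfl]
    · rw [not_not.1 fun h' => hm ((mem_sp hJ).2 h')]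
      exact Finset.sum_nonneg fun w _ => by split_ifs; exacts [hJ.nonneg w, le_rfl]

theorem finitePressure_eq (N n : ℕ) (β h : ℝ) : finitePressure d N n J β h =
    lz n (boxJ J (2 * N + 1)) β h / ((2 * N + 1 : ℕ) : ℝ) ^ d / β := by
  have e : (fun x y : Box d N => J (coord y - coord x)) = boxJ J (2 * N + 1) := by
    funext x y
    rw [boxJ]
    congr 1
    funext a
    simp [coord]
  rw [finitePressure, div_div, mul_comm _ β, ← e]
  rfl

end Crest.Agent.N337.Th

namespace Crest.Agent.N337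

open Crest.MathPhysics.SpinModel Filter Topology Th

theorem convexOn_of_tendsto {f : ℕ → ℝ → ℝ} {g : ℝ → ℝ} (hf : ∀ L, ConvexOn ℝ Set.univ (f L))
    (hg : ∀ h, Tendsto (fun L => f L h) atTop (𝓝 (g h))) : ConvexOn ℝ Set.univ g :=
  ⟨convex_univ, fun x hx y hy a b ha hb hab => le_of_tendsto_of_tendsto' (hg _)
    (((hg x).const_smul a).add ((hg y).const_smul b)) fun L => (hf L).2 hx hy ha hb hab⟩

/-- The thermodynamic limit. -/
theorem thermo : ThermoStmt := by
  intro d n J _ _ hJ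
  choose P hP1 hP2 using exists_limit hJ n
  have htor : ∀ β h, Tendsto (fun L : ℕ => press n (torJ J (L + 1)) β h) atTop (𝓝 (P β h / β)) := by
    intro β h
    refine ((hP2 β h).div_const β).congr fun L => ?_
    rw [press, Free.card_Tor, div_div, mul_comm _ β, Nat.cast_pow]
    rfl
  have hconv : ∀ β, 0 < β → ConvexOn ℝ Set.univ fun h => P β h / β := fun β hβ =>
    convexOn_of_tendsto (fun L => convexOn_press _ hβ.le) (htor β)
  refine ⟨fun β h => P β h / β, fun β => derivWithin (fun h => P β h / β) (Set.Ioi 0) 0,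
    fun β _ h => ?_, fun β hβ => ?_, hconv, fun β _ => htor β⟩
  · simp only [finitePressure_eq]
    refine ((hP1 β h).comp (g := fun l => lz n (boxJ J l) β h / (l : ℝ) ^ d) ?_).div_const β
    exact tendsto_atTop_mono (fun N => by simp only [id]; omega) tendsto_id
  · have h1 := ((hconv β hβ).differentiableWithinAt_Ioi_of_mem_interior (x := 0)
      (by simp)).hasDerivWithinAt
    rw [hasDerivWithinAt_iff_tendsto_slope' (by simp)] at h1
    refine h1.congr fun h => ?_
    rw [slope_def_field, sub_zero]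

end Crest.Agent.N337
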